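import Mathlib

/-!
**The factorization theorem of Wedderburn.**  `D` is a division ring with centre `K`, `w` is
algebraic over `K`.  The minimal polynomial of `w` is a product of factors `X - g w g⁻¹` over `D`,
so the norm of `w` is a product of conjugates of `w`.
-/

open Polynomial

namespace Vale.Agent.P011.H293

section ring

variable {D : Type*} [DivisionRing D]

/-- Right evaluation of a product, at a point where the right factor does not vanish. -/
theorem eval_mul_conj (p q : D[X]) {x : D} (h : q.eval x ≠ 0) :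
    (p * q).eval x = p.eval (q.eval x * x * (q.eval x)⁻¹) * q.eval x := by
  induction p using Polynomial.induction_on' with
  | add p₁ p₂ h₁ h₂ => rw [add_mul, eval_add, h₁, h₂, eval_add, add_mul]
  | monomial m a =>
    have h1 : monomial m a * q = C a * (q * X ^ m) := by
      rw [← C_mul_X_pow_eq_monomial, mul_assoc, X_pow_mul]
    have h2 : ∀ m : ℕ, (q * X ^ m).eval x = q.eval x * x ^ m := by
      intro m
      induction m with
      | zero => simp
      | succ m ih => rw [pow_succ, ← mul_assoc, eval_mul_X, ih, pow_succ, mul_assoc]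
    have h3 : ∀ m : ℕ, (q.eval x * x * (q.eval x)⁻¹) ^ m * q.eval x = q.eval x * x ^ m := by
      intro m
      induction m with
      | zero => simp
      | succ m ih =>
        rw [pow_succ, mul_assoc, inv_mul_cancel_right₀ h, ← mul_assoc, ih, pow_succ, mul_assoc]
    rw [h1, eval_C_mul, h2, eval_monomial, mul_assoc, h3]

/-- Right evaluation of a product, at a point where the right factor vanishes. -/
theorem eval_mul_zero (p q : D[X]) {x : D} (h : q.eval x = 0) : (p * q).eval x = 0 := by
  induction p using Polynomial.induction_on' with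
  | add p₁ p₂ h₁ h₂ => rw [add_mul, eval_add, h₁, h₂, add_zero]
  | monomial m a =>
    have h1 : monomial m a * q = C a * (q * X ^ m) := by
      rw [← C_mul_X_pow_eq_monomial, mul_assoc, X_pow_mul]
    have h2 : ∀ m : ℕ, (q * X ^ m).eval x = q.eval x * x ^ m := by
      intro m
      induction m with
      | zero => simp
      | succ m ih => rw [pow_succ, ← mul_assoc, eval_mul_X, ih, pow_succ, mul_assoc]
    rw [h1, eval_C_mul, h2, h, zero_mul, mul_zero]

/-- Division with remainder by `X - a` on the right. -/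
theorem exists_quot (p : D[X]) (a : D) : ∃ q : D[X], p = q * (X - C a) + C (p.eval a) := by
  induction p using Polynomial.induction_on' with
  | add p₁ p₂ h₁ h₂ =>
    obtain ⟨q₁, h₁⟩ := h₁
    obtain ⟨q₂, h₂⟩ := h₂
    refine ⟨q₁ + q₂, ?_⟩
    rw [eval_add, C_add, add_mul]
    nth_rw 1 [h₁, h₂]
    abel
  | monomial m b =>
    induction m with
    | zero => exact ⟨0, by simp⟩
    | succ m ih =>
      obtain ⟨q, hq⟩ := ih
      refine ⟨q * X + C (b * a ^ m), ?_⟩
      have h1 : monomial (m + 1) b = monomial m b * X := by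
        rw [← C_mul_X_pow_eq_monomial, ← C_mul_X_pow_eq_monomial, pow_succ, mul_assoc]
      rw [eval_monomial] at hq
      rw [h1, eval_mul_X, eval_monomial]
      nth_rw 1 [hq]
      rw [add_mul, mul_assoc q, add_mul, C_mul (a := b * a ^ m) (b := a)]
      have h2 : (X - C a) * X = X * (X - C a) := by
        rw [sub_mul, mul_sub, X_mul_C]
      rw [h2, mul_assoc q, mul_sub (C (b * a ^ m))]
      abel

theorem exists_quot_of_root (p : D[X]) {a : D} (h : p.eval a = 0) :
    ∃ q : D[X], p = q * (X - C a) := by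
  obtain ⟨q, hq⟩ := exists_quot p a
  exact ⟨q, by rw [h, C_0, add_zero] at hq; exact hq⟩

/-- The polynomial `∏ (X - aᵢ)`. -/
noncomputable def pr (L : List D) : D[X] := (L.map fun a => X - C a).prod

theorem pr_nil : pr ([] : List D) = 1 := rfl

theorem pr_cons (a : D) (L : List D) : pr (a :: L) = (X - C a) * pr L := by
  rw [pr, pr, List.map_cons, List.prod_cons]

theorem monic_pr (L : List D) : (pr L).Monic := by
  induction L with
  | nil => exact monic_one
  | cons a L ih => rw [pr_cons]; exact (monic_X_sub_C a).mul ih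

theorem natDegree_pr (L : List D) : (pr L).natDegree = L.length := by
  induction L with
  | nil => rw [pr_nil, natDegree_one, List.length_nil]
  | cons a L ih =>
    rw [pr_cons, Monic.natDegree_mul (monic_X_sub_C a) (monic_pr L), natDegree_X_sub_C, ih,
      List.length_cons, add_comm]

theorem coeff_zero_pr (L : List D) : (pr L).coeff 0 = (-1) ^ L.length * L.prod := by
  induction L with
  | nil => simp [pr_nil]
  | cons a L ih =>
    rw [pr_cons, mul_coeff_zero, ih, coeff_sub, coeff_X_zero, coeff_C_zero, List.length_cons,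
      List.prod_cons, zero_sub, pow_succ]
    have h : Commute ((-1 : D) ^ L.length) a := (Commute.neg_one_left a).pow_left _
    rw [neg_mul, ← mul_assoc, ← h.eq, mul_neg_one, neg_mul, mul_assoc]

end ring

section central

variable {K D : Type*} [Field K] [DivisionRing D] [Algebra K D] [Algebra.IsCentral K D]

/-- A polynomial vanishing on the conjugacy class of `w` has degree at least that of the minimal
polynomial of `w`. -/
theorem wed_vanish {w : D} {h : D[X]} (h0 : h ≠ 0)
    (hv : ∀ g : Dˣ, h.eval ((g : D) * w * (g⁻¹ : Dˣ)) = 0) :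
    (minpoly K w).natDegree ≤ h.natDegree := by
  classical
  let P : ℕ → Prop := fun m => ∃ h : D[X], h ≠ 0 ∧
    (∀ g : Dˣ, h.eval ((g : D) * w * (g⁻¹ : Dˣ)) = 0) ∧ h.natDegree = m
  have hP : ∃ m, P m := ⟨_, h, h0, hv, rfl⟩
  obtain ⟨h₁, h10, h1v, h1d⟩ := Nat.find_spec hP
  have hmin : ∀ h' : D[X], h' ≠ 0 → (∀ g : Dˣ, h'.eval ((g : D) * w * (g⁻¹ : Dˣ)) = 0) →
      Nat.find hP ≤ h'.natDegree := fun h' a b => Nat.find_le ⟨h', a, b, rfl⟩
  refine le_trans ?_ (hmin h h0 hv)
  -- make it monic
  let c := h₁.leadingCoeff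
  have hc : c ≠ 0 := leadingCoeff_ne_zero.mpr h10
  let m : D[X] := C c⁻¹ * h₁
  have hmC : ∀ j, m.coeff j = c⁻¹ * h₁.coeff j := fun j => coeff_C_mul _
  have hmd : m.natDegree = h₁.natDegree := natDegree_C_mul (inv_ne_zero hc)
  have hmm : m.Monic := by
    rw [Monic, leadingCoeff, hmd, hmC]
    exact inv_mul_cancel₀ hc
  have hmv : ∀ g : Dˣ, m.eval ((g : D) * w * (g⁻¹ : Dˣ)) = 0 := fun g => by
    rw [eval_C_mul, h1v, mul_zero]
  -- the coefficients are central
  have hcen : ∀ (d : Dˣ) (j : ℕ), (d : D) * m.coeff j * (d⁻¹ : Dˣ) = m.coeff j := by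
    intro d
    let m' : D[X] := C (d : D) * m * C ((d⁻¹ : Dˣ) : D)
    have hC' : ∀ j, m'.coeff j = (d : D) * m.coeff j * (d⁻¹ : Dˣ) := fun j => by
      rw [coeff_mul_C, coeff_C_mul]
    have hev : ∀ (p : D[X]) (x : D), (p * C ((d⁻¹ : Dˣ) : D)).eval x =
        p.eval ((d⁻¹ : Dˣ) * x * (d : D)) * (d⁻¹ : Dˣ) := by
      intro p x
      have h1 : (C ((d⁻¹ : Dˣ) : D)).eval x ≠ 0 := by
        rw [eval_C]; exact Units.ne_zero _
      rw [eval_mul_conj _ _ h1, eval_C]
      congr 2
      rw [← Units.val_inv_eq_inv_val, inv_inv]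
    have hv' : ∀ g : Dˣ, m'.eval ((g : D) * w * (g⁻¹ : Dˣ)) = 0 := by
      intro g
      have h2 : ((d⁻¹ : Dˣ) : D) * ((g : D) * w * (g⁻¹ : Dˣ)) * (d : D) =
          ((d⁻¹ * g : Dˣ) : D) * w * (((d⁻¹ * g)⁻¹ : Dˣ) : D) := by
        rw [mul_inv_rev, inv_inv, Units.val_mul, Units.val_mul]
        simp only [mul_assoc]
      rw [hev, eval_C_mul, h2, hmv, mul_zero, zero_mul]
    by_cases hz : m - m' = 0
    · intro j
      rw [← hC', ← sub_eq_zero, ← neg_sub, ← coeff_sub, hz, coeff_zero, neg_zero]
    · exfalso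
      have h3 := hmin (m - m') hz (fun g => by rw [eval_sub, hmv, hv', sub_zero])
      have h4 : (m - m').natDegree < m.natDegree := by
        have h5 : (m - m').natDegree ≤ m.natDegree := by
          refine (natDegree_sub_le _ _).trans (max_le le_rfl ?_)
          refine natDegree_le_iff_coeff_eq_zero.mpr fun j hj => ?_
          rw [hC', coeff_eq_zero_of_natDegree_lt hj, mul_zero, zero_mul]
        refine lt_of_le_of_ne h5 fun h6 => hz ?_
        have h7 : (m - m').leadingCoeff = 0 := by
          rw [leadingCoeff, h6, coeff_sub, hC']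
          have h8 : m.coeff m.natDegree = 1 := hmm
          rw [h8, mul_one, Units.mul_inv, sub_self]
        exact leadingCoeff_eq_zero.mp h7
      rw [hmd, h1d] at h4
      exact absurd (h3.trans_lt h4) (lt_irrefl _)
  have hlift : ∀ j, ∃ a : K, algebraMap K D a = m.coeff j := by
    intro j
    have h5 : m.coeff j ∈ Subalgebra.center K D := by
      rw [Subalgebra.mem_center_iff]
      intro x
      rcases eq_or_ne x 0 with rfl | hx
      · rw [zero_mul, mul_zero]
      · have h6 := hcen (Units.mk0 x hx) j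
        rw [Units.val_mk0] at h6
        calc x * m.coeff j = x * m.coeff j * (((Units.mk0 x hx)⁻¹ : Dˣ) : D) * x := by
              rw [mul_assoc (x * m.coeff j)]
              have : (((Units.mk0 x hx)⁻¹ : Dˣ) : D) * x = 1 := (Units.mk0 x hx).inv_mul
              rw [this, mul_one]
          _ = m.coeff j * x := by rw [h6]
    rw [Algebra.IsCentral.center_eq_bot, Algebra.mem_bot] at h5
    exact h5
  choose a ha using hlift
  let m₀ : K[X] := ∑ j ∈ Finset.range (m.natDegree + 1), monomial j (a j)
  have hm0 : m₀.map (algebraMap K D) = m := by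
    rw [Polynomial.map_sum]
    simp only [map_monomial, ha]
    exact (as_sum_range' m _ (Nat.lt_succ_self _)).symm
  have h5 : m₀ ≠ 0 := by
    intro h6
    rw [h6, Polynomial.map_zero] at hm0
    exact hmm.ne_zero hm0.symm
  have h6 : aeval w m₀ = 0 := by
    have h7 := hmv 1
    rw [inv_one, Units.val_one, one_mul, mul_one, ← hm0, eval_map] at h7
    rw [aeval_def]
    exact h7
  have h7 := natDegree_le_natDegree (minpoly.degree_le_of_ne_zero K w h5 h6)
  have h8 : m₀.natDegree = m.natDegree := by
    rw [← hm0, natDegree_map_eq_of_injective (algebraMap K D).injective]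
  rw [h8, hmd, h1d] at h7
  exact h7

/-- The factorization of the minimal polynomial. -/
theorem wed_fac {w : D} (hw : IsIntegral K w) :
    ∃ L : List D, L.length = (minpoly K w).natDegree ∧
      (∀ a ∈ L, ∃ g : Dˣ, a = (g : D) * w * (g⁻¹ : Dˣ)) ∧
      (minpoly K w).map (algebraMap K D) = pr L := by
  set f : D[X] := (minpoly K w).map (algebraMap K D) with hf
  have hfm : f.Monic := (minpoly.monic hw).map _
  have hfd : f.natDegree = (minpoly K w).natDegree :=
    natDegree_map_eq_of_injective (algebraMap K D).injective _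
  have hroot : ∀ g : Dˣ, f.eval ((g : D) * w * (g⁻¹ : Dˣ)) = 0 := by
    intro g
    have h1 : ((g : D) * w * (g⁻¹ : Dˣ)) = MulSemiringAction.toAlgEquiv K D (ConjAct.toConjAct g) w :=
      rfl
    rw [h1, hf, eval_map, ← aeval_def]
    rw [show aeval (MulSemiringAction.toAlgEquiv K D (ConjAct.toConjAct g) w) (minpoly K w) =
      MulSemiringAction.toAlgEquiv K D (ConjAct.toConjAct g) (aeval w (minpoly K w)) from
        (Polynomial.aeval_algHom_apply (MulSemiringAction.toAlgEquiv K D
          (ConjAct.toConjAct g)).toAlgHom w _), minpoly.aeval, map_zero]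
  have key : ∀ r : ℕ, r ≤ (minpoly K w).natDegree → ∃ (L : List D) (q : D[X]), L.length = r ∧
      (∀ a ∈ L, ∃ g : Dˣ, a = (g : D) * w * (g⁻¹ : Dˣ)) ∧ f = q * pr L := by
    intro r
    induction r with
    | zero => exact fun _ => ⟨[], f, rfl, by simp, by rw [pr_nil, mul_one]⟩
    | succ r ih =>
      intro hr
      obtain ⟨L, q, hL, hLc, hq⟩ := ih (by omega)
      have h1 : ∃ g : Dˣ, (pr L).eval ((g : D) * w * (g⁻¹ : Dˣ)) ≠ 0 := by
        by_contra hcon
        push Not at hcon
        have h2 := wed_vanish (K := K) (monic_pr L).ne_zero hcon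
        rw [natDegree_pr, hL] at h2
        omega
      obtain ⟨g, hg⟩ := h1
      set y : D := (pr L).eval ((g : D) * w * (g⁻¹ : Dˣ)) with hy
      have h2 : q.eval (y * ((g : D) * w * (g⁻¹ : Dˣ)) * y⁻¹) = 0 := by
        have h3 := hroot g
        rw [hq, eval_mul_conj _ _ hg, ← hy] at h3
        exact (mul_eq_zero.mp h3).resolve_right hg
      obtain ⟨q', hq'⟩ := exists_quot_of_root q h2
      refine ⟨(y * ((g : D) * w * (g⁻¹ : Dˣ)) * y⁻¹) :: L, q', ?_, ?_, ?_⟩
      · rw [List.length_cons, hL]
      · intro a ha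
        rcases List.mem_cons.mp ha with rfl | ha
        · refine ⟨Units.mk0 y hg * g, ?_⟩
          rw [mul_inv_rev, Units.val_mul, Units.val_mul, Units.val_mk0, Units.val_inv_eq_inv_val
            (Units.mk0 y hg), Units.val_mk0]
          simp only [mul_assoc]
        · exact hLc a ha
      · rw [pr_cons, ← mul_assoc, ← hq', hq]
  obtain ⟨L, q, hL, hLc, hq⟩ := key _ le_rfl
  refine ⟨L, hL, hLc, ?_⟩
  have h1 : q.Monic := by
    have h2 := hfm
    rw [hq] at h2
    exact (monic_pr L).of_mul_monic_right h2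
  have h2 : q.natDegree = 0 := by
    have h3 := congrArg natDegree hq
    rw [h1.natDegree_mul (monic_pr L), natDegree_pr, hfd, hL] at h3
    omega
  rw [hq, h1.natDegree_eq_zero.mp h2, one_mul]

/-- The constant coefficient of the minimal polynomial is a product of conjugates. -/
theorem wed_coeff {w : D} (hw : IsIntegral K w) :
    ∃ L : List D, L.length = (minpoly K w).natDegree ∧
      (∀ a ∈ L, ∃ g : Dˣ, a = (g : D) * w * (g⁻¹ : Dˣ)) ∧
      algebraMap K D ((-1) ^ (minpoly K w).natDegree * (minpoly K w).coeff 0) = L.prod := by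
  obtain ⟨L, hL, hLc, hf⟩ := wed_fac (K := K) hw
  refine ⟨L, hL, hLc, ?_⟩
  have h1 := congrArg (fun p => coeff p 0) hf
  simp only [coeff_map, coeff_zero_pr] at h1
  rw [map_mul, h1, map_pow, map_neg, map_one, ← mul_assoc, ← pow_add, hL, ← two_mul, pow_mul,
    neg_one_sq, one_pow, one_mul]

end central

end Vale.Agent.P011.H293
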